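import Mathlib
import Vale.Agent.P244.Defs
import Vale.Agent.P244.Calculus
import Vale.Agent.P244.Multi.Defs
import Vale.Agent.P244.Multi.Evolution
import Vale.Agent.P244.Cap.Defs
import Vale.Agent.P244.Cap.Evolution
import Vale.Agent.P244.Cap.Main

/-!
# P244: bounded scalar curvature prevents curvature blow-up for warped flows with poles
-/

open Set

namespace Vale.Agent.Results.P244.CappedWarpedExtension

open Vale.Agent.P244

/-- For a Ricci flow on a sphere times nonpositively curved Einstein manifolds, warped over the polar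
coordinate of the sphere, an upper bound on scalar curvature bounds all curvature components up to the
final time. -/
theorem result :
    ∀ (m : ℕ) (p : Fin (m + 1) → ℕ) (k : Fin (m + 1) → ℝ), (∀ i, 1 ≤ p i) → k 0 = (p 0 : ℝ) - 1 →
      (∀ i : Fin m, k i.succ ≤ 0) →
      ∀ (a T : ℝ) (φ : ℝ × ℝ → ℝ) (u : Fin (m + 1) → ℝ × ℝ → ℝ), IsCapFlow p k a T φ u →
      (∃ C, ∀ z ∈ slab a T, multiScal p k φ u z ≤ C) →
      ∀ t₀ ∈ Ioo a T, ∃ C, ∀ x, ∀ t ∈ Ico t₀ T,
        |k 0 * Real.exp (-2 * u 0 (x, t)) - ((p 0 : ℝ) - 1) * dS φ (u 0) (x, t) ^ 2| ≤ C ∧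
        |dS φ (dS φ (u 0)) (x, t) + dS φ (u 0) (x, t) ^ 2| ≤ C ∧
        ∀ i : Fin m, |u i.succ (x, t)| ≤ C ∧ |dS φ (u i.succ) (x, t)| ≤ C ∧
          |dS φ (dS φ (u i.succ)) (x, t)| ≤ C ∧ |dS φ (u 0) (x, t) * dS φ (u i.succ) (x, t)| ≤ C := by
  intro m p k hp hk0 hk a T φ u h hbound t₀ ht₀
  obtain ⟨C, hR⟩ := hbound
  have hR' : ∀ z ∈ slab a T, mR p k φ u z ≤ C := fun z hz => by
    have h1 := hR z hz
    have e : multiScal p k φ u z = mR p k φ u z := by
      simp only [multiScal, mR, mS, fibE, mK_eq, mQ, msig, sq]; ring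
    rwa [← e]
  obtain ⟨G, hG⟩ := h.curvature_bounds ht₀ hp hk0 hk hR'
  refine ⟨G, fun x t ht => ?_⟩
  obtain ⟨h1, h2, h3⟩ := hG (x, t) ⟨mem_univ _, ht₀.1.trans_le ht.1, ht.2⟩ ht.1
  simp only [sq]
  exact ⟨h1, h2, h3⟩

end Vale.Agent.Results.P244.CappedWarpedExtension
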