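import Mathlib
import Vale.Agent.P244.Defs
import Vale.Agent.P244.Calculus
import Vale.Agent.P244.Multi.Defs
import Vale.Agent.P244.Multi.Algebra
import Vale.Agent.P244.Multi.Evolution
import Vale.Agent.P244.Multi.Estimates
import Vale.Agent.P244.Multi.Second

/-!
# P244: bounded scalar curvature prevents curvature blow-up for multiply warped flows over the circle
-/

open Set

namespace Vale.Agent.Results.P244.MultiWarpedExtension

open Vale.Agent.P244

/-- For a Ricci flow over the circle with any number of Einstein fibres, those of positive constant being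
of dimension at least two, an upper bound on scalar curvature bounds all curvature components up to the
final time. -/
theorem result :
    ∀ (m : ℕ) (p : Fin m → ℕ) (k : Fin m → ℝ), (∀ i, 1 ≤ p i) → (∀ i, 0 < k i → 2 ≤ p i) →
      ∀ (a T : ℝ) (φ : ℝ × ℝ → ℝ) (u : Fin m → ℝ × ℝ → ℝ), IsMultiFlow p k a T φ u →
      (∃ C, ∀ z ∈ slab a T, multiScal p k φ u z ≤ C) →
      ∀ t₀ ∈ Ioo a T, ∃ C, ∀ i, ∀ x, ∀ t ∈ Ico t₀ T,
        |u i (x, t)| ≤ C ∧ |dS φ (u i) (x, t)| ≤ C ∧ |dS φ (dS φ (u i)) (x, t)| ≤ C := by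
  intro m p k hp hk a T φ u h hbound t₀ ht₀
  obtain ⟨C, hR⟩ := hbound
  obtain ⟨M, hM0, hM⟩ := h.first_bounds ht₀ hp hk hR
  obtain ⟨N, hN⟩ := h.second_bounds ht₀ hp hM0 hM
  refine ⟨M + 1 + |N|, fun i x t ht => ?_⟩
  have hz : (x, t) ∈ slab a T := ⟨mem_univ _, ht₀.1.trans_le ht.1, ht.2⟩
  obtain ⟨h1, -, h3⟩ := hM i _ hz ht.1
  have h4 := hN i _ hz ht.1
  have hv : |dS φ (u i) (x, t)| ≤ dS φ (u i) (x, t) * dS φ (u i) (x, t) + 1 := by
    nlinarith [abs_mul_abs_self (dS φ (u i) (x, t)), sq_nonneg (|dS φ (u i) (x, t)| - 1)]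
  refine ⟨?_, ?_, ?_⟩ <;> linarith [abs_nonneg N, le_abs_self N]

end Vale.Agent.Results.P244.MultiWarpedExtension
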